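import Vale.Agent.P319.Machine
import Vale.Agent.P319.QM

namespace Vale.Agent.Results.P319.BoundedFactors

open Vale.Agent.P319 Polynomial

theorem result (k : ℕ) : ∃ F : List ℕ → List (List ℕ),
    (∃ M : Turing.TM2ComputableInPolyTime codeNats codeLists F, ∀ i, Finite (M.tm.Γ i)) ∧
    ∀ (p : ℕ) (f : List ℕ), p.Prime → toPoly p f ≠ 0 →
      (∃ (c : ℕ) (L : List (List ℕ)), F (p :: f) = [c] :: L ∧
        toPoly p f = C (c : ZMod p) * (L.map (toPoly p)).prod ∧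
        ∀ g ∈ L, ∃ (d : ℕ) (s : Finset (ZMod p)[X]),
          (∀ h ∈ s, h.Monic ∧ Irreducible h ∧ h.natDegree = d) ∧ toPoly p g = ∏ h ∈ s, h ∧
          ∀ r : ℕ, r.Prime → r ∣ s.card → 5 ≤ r ∧ (k < r ∨ r ^ 2 ∣ p ^ (r - 1) - 1)) ∧
      ((∀ r : ℕ, r.Prime → 5 ≤ r → r ≤ k → ¬ r ^ 2 ∣ p ^ (r - 1) - 1) →
        (∀ (d : ℕ) (s : Finset (ZMod p)[X]),
          (∀ h ∈ s, h.Monic ∧ Irreducible h ∧ h ∣ toPoly p f ∧ h.natDegree = d) → s.card ≤ k) →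
        IsFactorization p (toPoly p f) (F (p :: f))) := by
  obtain ⟨A, J, hA⟩ := Q.M.algk_spec k
  refine ⟨Q.M.algk k A J, machine (Q.M.pt_algk k A J), fun p f hp hf => ?_⟩
  have := Fact.mk hp
  obtain ⟨c, L, h1, h2, h3⟩ := hA p f hp hf
  refine ⟨⟨c, L, h1, h2, h3⟩, fun hq h4 => ⟨c, L, h1, h2, fun g hg => (h3 g hg).irr hq fun d s hs => h4 d s
    fun h hh => ⟨(hs h hh).1, (hs h hh).2.1, ?_, (hs h hh).2.2.2⟩⟩⟩
  rw [h2]
  exact ((hs h hh).2.2.1.trans (List.dvd_prod (List.mem_map_of_mem hg))).mul_left _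

end Vale.Agent.Results.P319.BoundedFactors
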