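import Vale.Agent.P319.Machine
import Vale.Agent.P319.FIN
import Vale.Agent.P319.Low
import Vale.Agent.P319.NC
import Vale.Agent.P319.CB
import Vale.Agent.P319.SQ
import Vale.Agent.P319.R3
import Vale.Agent.P319.RT
import Vale.Agent.P319.PA1
import Vale.Agent.P319.PA2
import Vale.Agent.P319.PW
import Vale.Agent.P319.GC

namespace Vale.Agent.Results.P319.FewFactors

open Vale.Agent.P319

theorem result : ∃ F : List ℕ → List (List ℕ),
    (∃ M : Turing.TM2ComputableInPolyTime codeNats codeLists F, ∀ k, Finite (M.tm.Γ k)) ∧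
    ∀ (p : ℕ) (f : List ℕ), p.Prime → toPoly p f ≠ 0 →
      ((toPoly p f).natDegree ≤ 4 ∨ ∀ d : ℕ, {g : Polynomial (ZMod p) |
        g.Monic ∧ Irreducible g ∧ g ∣ toPoly p f ∧ g.natDegree = d}.encard ≤ 4) →
      IsFactorization p (toPoly p f) (F (p :: f)) := by
  obtain ⟨F, h1, h2⟩ := finS pa1S (pa2S pa1S) (pwS pa1S (pa2S pa1S)) (gcS pa1S (pa2S pa1S))
    (rtS (r3S ncS cbS sqS) sqS)
  exact ⟨F, machine h1, fun p f hp f0 h => h2 p f hp f0 (h.elim (few_low hp f0) id)⟩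

end Vale.Agent.Results.P319.FewFactors
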