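import Vale.Agent.P319.Machine
import Vale.Agent.P319.NonRes

namespace Vale.Agent.Results.P319.Quadratic

open Vale.Agent.P319

theorem result : ∃ F : List ℕ → List (List ℕ),
    (∃ M : Turing.TM2ComputableInPolyTime codeNats codeLists F, ∀ k, Finite (M.tm.Γ k)) ∧
    ∀ (p : ℕ) (f : List ℕ), p.Prime → toPoly p f ≠ 0 → (toPoly p f).natDegree ≤ 2 →
      IsFactorization p (toPoly p f) (F (p :: f)) := by
  obtain ⟨A, hA⟩ := nonres
  exact ⟨alg A, machine (pt_alg A), fun p f hp _ hf => alg_spec A p f hp hf (hA p hp)⟩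

end Vale.Agent.Results.P319.Quadratic
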